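import Mathlib

/-!
S0086: Lovasz local lemma (symmetric weighted version), Chernoff bound in counting form and
the existence of a balanced colouring of a finite set of cells.
-/

set_option autoImplicit false

namespace Crest.Agent.S86

open Finset

section LLL

variable {C : Type*} [Fintype C] [DecidableEq C] {α : Type*} [Fintype α] [DecidableEq α]

/-- swapping the coordinates outside `T`. -/
def swapOut (T : Finset C) (p : (C → α) × (C → α)) : (C → α) × (C → α) :=
  (fun c => if c ∈ T then p.1 c else p.2 c, fun c => if c ∈ T then p.2 c else p.1 c)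

omit [Fintype C] [Fintype α] [DecidableEq α] in
theorem swapOut_invol (T : Finset C) (p : (C → α) × (C → α)) : swapOut T (swapOut T p) = p := by
  unfold swapOut
  ext c
  · by_cases h : c ∈ T <;> simp [h]
  · by_cases h : c ∈ T <;> simp [h]

omit [DecidableEq α] in
open Classical in
/-- independence of events depending on disjoint sets of coordinates, counting form. -/
theorem card_and_mul (T : Finset C) (P Q : (C → α) → Prop)
    (hP : ∀ g g', (∀ c ∈ T, g c = g' c) → P g → P g')
    (hQ : ∀ g g', (∀ c, c ∉ T → g c = g' c) → Q g → Q g') :
    (univ.filter fun g => P g ∧ Q g).card * Fintype.card (C → α) =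
      (univ.filter P).card * (univ.filter Q).card := by
  rw [← Finset.card_univ (α := C → α), ← Finset.card_product, ← Finset.card_product]
  refine Finset.card_bij' (fun p _ => swapOut T p) (fun p _ => swapOut T p) ?_ ?_ ?_ ?_
  · rintro ⟨u, v⟩ h
    simp only [mem_product, mem_filter, mem_univ, true_and, and_true] at h ⊢
    obtain ⟨h1, h2⟩ := h
    refine ⟨hP u _ ?_ h1, hQ u _ ?_ h2⟩
    · intro c hc; simp [swapOut, hc]
    · intro c hc; simp [swapOut, hc]
  · rintro ⟨u, v⟩ h
    simp only [mem_product, mem_filter, mem_univ, true_and, and_true] at h ⊢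
    obtain ⟨h1, h2⟩ := h
    refine ⟨hP u _ ?_ h1, hQ v _ ?_ h2⟩
    · intro c hc; simp [swapOut, hc]
    · intro c hc; simp [swapOut, hc]
  · intro p _; exact swapOut_invol T p
  · intro p _; exact swapOut_invol T p

variable {ι : Type*} [DecidableEq ι]

open Classical in
/-- The number of points avoiding all bad events indexed by `J`. -/
noncomputable def good (B : ι → (C → α) → Prop) (J : Finset ι) : Finset (C → α) :=
  univ.filter fun g => ∀ j ∈ J, ¬ B j g

open Classical in
theorem lll_step (I : Finset ι) (S : ι → Finset C) (B : ι → (C → α) → Prop)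
    (hB : ∀ i ∈ I, ∀ g g', (∀ c ∈ S i, g c = g' c) → B i g → B i g')
    (p : ι → ℝ) (hp : ∀ i ∈ I, ((univ.filter (B i)).card : ℝ) ≤ p i * Fintype.card (C → α))
    (hsum : ∀ i ∈ I, ∑ j ∈ I.filter (fun j => ¬ Disjoint (S j) (S i)), p j ≤ 1 / 4)
    (hα : 0 < Fintype.card (C → α)) :
    ∀ (n : ℕ) (J : Finset ι), J ⊆ I → J.card = n → ∀ i ∈ I,
      (((good B J).filter (B i)).card : ℝ) ≤ 2 * p i * (good B J).card := by
  have hp0 : ∀ i ∈ I, 0 ≤ p i := by
    intro i hi
    have h := hp i hi
    have h1 : (0 : ℝ) ≤ p i * Fintype.card (C → α) := le_trans (Nat.cast_nonneg _) h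
    have h2 : (0 : ℝ) < Fintype.card (C → α) := by exact_mod_cast hα
    exact nonneg_of_mul_nonneg_left h1 h2
  intro n
  induction n using Nat.strong_induction_on with
  | _ n ih =>
    intro J hJ hJn i hi
    set J1 := J.filter (fun j => ¬ Disjoint (S j) (S i)) with hJ1
    set J2 := J.filter (fun j => Disjoint (S j) (S i)) with hJ2
    have hJ2sub : J2 ⊆ J := filter_subset _ _
    have hJ1sub : J1 ⊆ J := filter_subset _ _
    -- independence
    have hind : (((good B J2).filter (B i)).card : ℝ) ≤ p i * (good B J2).card := by
      have h1 := card_and_mul (S i) (B i) (fun g => ∀ j ∈ J2, ¬ B j g) (hB i hi) (by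
        intro g g' hgg' hg j hj hbad
        have hjI : j ∈ I := hJ (hJ2sub hj)
        refine hg j hj (hB j hjI g' g ?_ hbad)
        intro c hc
        have hdis : Disjoint (S j) (S i) := (mem_filter.mp hj).2
        exact (hgg' c (Finset.disjoint_left.mp hdis hc)).symm)
      have h2 : (good B J2).filter (B i) = univ.filter (fun g => B i g ∧ ∀ j ∈ J2, ¬ B j g) := by
        ext g; simp [good, and_comm]
      have h3 : (univ.filter fun g => ∀ j ∈ J2, ¬ B j g).card = (good B J2).card := by
        unfold good
        congr
      rw [h2]
      replace h1 : (univ.filter (fun g => B i g ∧ ∀ j ∈ J2, ¬ B j g)).card *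
          Fintype.card (C → α) = (univ.filter (B i)).card * (good B J2).card := by
        rw [← h3]
        convert h1
      have h4 : ((univ.filter (fun g => B i g ∧ ∀ j ∈ J2, ¬ B j g)).card : ℝ) *
          Fintype.card (C → α) ≤ (p i * (good B J2).card) * Fintype.card (C → α) := by
        have : ((univ.filter (fun g => B i g ∧ ∀ j ∈ J2, ¬ B j g)).card : ℝ) *
          Fintype.card (C → α) = (univ.filter (B i)).card * (good B J2).card := by
          exact_mod_cast h1
        rw [this]
        have := mul_le_mul_of_nonneg_right (hp i hi) (Nat.cast_nonneg (α := ℝ) (good B J2).card)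
        nlinarith [this]
      exact le_of_mul_le_mul_right h4 (by exact_mod_cast hα)
    have hgsub : good B J ⊆ good B J2 := by
      intro g hg
      simp only [good, mem_filter, mem_univ, true_and] at hg ⊢
      exact fun j hj => hg j (hJ2sub hj)
    have hle : (((good B J).filter (B i)).card : ℝ) ≤ p i * (good B J2).card := by
      refine le_trans ?_ hind
      exact_mod_cast Finset.card_le_card (Finset.filter_subset_filter _ hgsub)
    rcases Finset.eq_empty_or_nonempty J1 with hE | hne
    · have hJeq : J = J2 := by
        ext j
        constructor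
        · intro hj
          by_contra hcon
          have : j ∈ J1 := by
            rw [hJ1, mem_filter]
            refine ⟨hj, fun hd => hcon ?_⟩
            rw [hJ2, mem_filter]; exact ⟨hj, hd⟩
          rw [hE] at this
          exact absurd this (Finset.notMem_empty _)
        · intro hj; exact hJ2sub hj
      rw [← hJeq] at hle
      have := hp0 i hi
      have h0 : (0 : ℝ) ≤ (good B J).card := Nat.cast_nonneg _
      nlinarith [mul_nonneg this h0]
    · have hcard : J2.card < n := by
        rw [← hJn]
        apply Finset.card_lt_card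
        refine ⟨hJ2sub, fun h => ?_⟩
        obtain ⟨j, hj⟩ := hne
        have h1 : j ∈ J2 := h (hJ1sub hj)
        exact (mem_filter.mp hj).2 (mem_filter.mp h1).2
      -- good J2 is covered by good J and the bad events of J1
      have hcover : good B J2 ⊆ good B J ∪ J1.biUnion (fun j => (good B J2).filter (B j)) := by
        intro g hg
        rw [mem_union]
        by_cases hgJ : g ∈ good B J
        · exact Or.inl hgJ
        · right
          simp only [good, mem_filter, mem_univ, true_and, not_forall, not_not] at hgJ
          obtain ⟨j, hj, hbad⟩ := hgJ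
          rw [mem_biUnion]
          refine ⟨j, ?_, ?_⟩
          · rw [hJ1, mem_filter]
            refine ⟨hj, fun hd => ?_⟩
            have hj2 : j ∈ J2 := by rw [hJ2, mem_filter]; exact ⟨hj, hd⟩
            simp only [good, mem_filter, mem_univ, true_and] at hg
            exact hg j hj2 hbad
          · rw [mem_filter]; exact ⟨hg, hbad⟩
      have h5 : ((good B J2).card : ℝ) ≤ (good B J).card +
          ∑ j ∈ J1, (((good B J2).filter (B j)).card : ℝ) := by
        have := Finset.card_le_card hcover
        have h6 := (this.trans (Finset.card_union_le _ _)).trans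
          (Nat.add_le_add_left Finset.card_biUnion_le _)
        exact_mod_cast h6
      have h7 : ∑ j ∈ J1, (((good B J2).filter (B j)).card : ℝ) ≤
          ∑ j ∈ J1, 2 * p j * (good B J2).card := by
        apply Finset.sum_le_sum
        intro j hj
        exact ih J2.card hcard J2 (hJ2sub.trans hJ) rfl j (hJ (hJ1sub hj))
      have h8 : ∑ j ∈ J1, 2 * p j * ((good B J2).card : ℝ) =
          2 * (∑ j ∈ J1, p j) * (good B J2).card := by
        rw [Finset.mul_sum, Finset.sum_mul]
      have h9 : ∑ j ∈ J1, p j ≤ 1 / 4 := by
        refine le_trans ?_ (hsum i hi)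
        apply Finset.sum_le_sum_of_subset_of_nonneg
        · intro j hj
          have := mem_filter.mp hj
          exact mem_filter.mpr ⟨hJ this.1, this.2⟩
        · intro j hj _
          exact hp0 j (mem_filter.mp hj).1
      have h10 : (0 : ℝ) ≤ (good B J2).card := Nat.cast_nonneg _
      have h11 : ((good B J2).card : ℝ) ≤ 2 * (good B J).card := by
        have : 2 * (∑ j ∈ J1, p j) * ((good B J2).card : ℝ) ≤ 1 / 2 * (good B J2).card := by
          apply mul_le_mul_of_nonneg_right _ h10
          linarith
        linarith
      have := mul_le_mul_of_nonneg_left h11 (hp0 i hi)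
      linarith

/-- **Lovász local lemma**, version "the total probability of the neighbours is at most 1/4". -/
theorem lll (I : Finset ι) (S : ι → Finset C) (B : ι → (C → α) → Prop)
    [∀ i, DecidablePred (B i)] [Nonempty (C → α)]
    (hB : ∀ i ∈ I, ∀ g g', (∀ c ∈ S i, g c = g' c) → B i g → B i g')
    (p : ι → ℝ) (hp : ∀ i ∈ I, ((univ.filter (B i)).card : ℝ) ≤ p i * Fintype.card (C → α))
    (hp4 : ∀ i ∈ I, p i ≤ 1 / 4)
    (hsum : ∀ i ∈ I, ∑ j ∈ I.filter (fun j => ¬ Disjoint (S j) (S i)), p j ≤ 1 / 4) :
    ∃ g : C → α, ∀ i ∈ I, ¬ B i g := by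
  classical
  have hα : 0 < Fintype.card (C → α) := Fintype.card_pos
  have hp' : ∀ i ∈ I, ((@Finset.filter _ (B i) (fun a => Classical.propDecidable _) univ).card : ℝ) ≤
      p i * Fintype.card (C → α) := by
    intro i hi
    convert hp i hi
  have key := lll_step I S B hB p (by intro i hi; convert hp i hi) hsum hα
  have hpos : ∀ J : Finset ι, J ⊆ I → 0 < (good B J).card := by
    intro J
    induction J using Finset.induction_on with
    | empty =>
      intro _
      rw [Finset.card_pos]
      obtain ⟨g⟩ := ‹Nonempty (C → α)›
      exact ⟨g, by simp [good]⟩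
    | insert i J hiJ ihJ =>
      intro hsub
      have hJI : J ⊆ I := fun j hj => hsub (Finset.mem_insert_of_mem hj)
      have hi : i ∈ I := hsub (Finset.mem_insert_self _ _)
      have h1 := ihJ hJI
      have h2 := key J.card J hJI rfl i hi
      have h3 : (good B J).card = ((good B J).filter (B i)).card + (good B (insert i J)).card := by
        rw [← Finset.card_filter_add_card_filter_not (s := good B J) (B i)]
        congr 2
        ext g
        simp [good, and_comm]
      have h4 : ((good B J).card : ℝ) =
          ((good B J).filter (B i)).card + (good B (insert i J)).card := by exact_mod_cast h3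
      have h5 : (0 : ℝ) < (good B J).card := by exact_mod_cast h1
      have h6 := hp4 i hi
      have h7 : 2 * p i * ((good B J).card : ℝ) ≤ 1 / 2 * (good B J).card := by
        apply mul_le_mul_of_nonneg_right _ h5.le
        linarith
      have h8 : (0 : ℝ) < (good B (insert i J)).card := by
        have h2' : (((good B J).filter (B i)).card : ℝ) ≤ 2 * p i * (good B J).card := by
          convert h2
        linarith
      exact_mod_cast h8
  have h := hpos I (Finset.Subset.refl _)
  rw [Finset.card_pos] at h
  obtain ⟨g, hg⟩ := h
  refine ⟨g, ?_⟩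
  simp only [good, mem_filter, mem_univ, true_and] at hg
  exact hg

end LLL

end Crest.Agent.S86
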