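import Mathlib

set_option autoImplicit false

namespace Crest.Agent.S86V

open Polynomial Finset

/-! ### the shift difference `g_p(X) = f(X+p) - f(X)` -/

/-- shift difference -/
noncomputable def gp (f : ℝ[X]) (p : ℝ) : ℝ[X] := taylor p f - f

theorem gp_eval (f : ℝ[X]) (p x : ℝ) : (gp f p).eval x = f.eval (x + p) - f.eval x := by
  simp [gp, taylor_eval]

theorem coeff_taylor_pred (f : ℝ[X]) (hb : 1 ≤ f.natDegree) (p : ℝ) :
    (taylor p f).coeff (f.natDegree - 1)
      = f.coeff (f.natDegree - 1) + f.natDegree * f.leadingCoeff * p := by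
  rw [taylor_coeff]
  obtain ⟨n, hn⟩ : ∃ n, f.natDegree = n + 1 := ⟨f.natDegree - 1, by omega⟩
  rw [hn, Nat.add_sub_cancel]
  have hd : (hasseDeriv n f).natDegree ≤ 1 := by
    refine (natDegree_hasseDeriv_le f n).trans ?_
    omega
  rw [eval_eq_sum_range' (n := 2) (by omega)]
  rw [Finset.sum_range_succ, Finset.sum_range_one, hasseDeriv_coeff, hasseDeriv_coeff]
  have : f.leadingCoeff = f.coeff (n + 1) := by rw [leadingCoeff, hn]
  rw [this]
  simp only [zero_add, Nat.choose_self, Nat.cast_one, one_mul, pow_zero, mul_one, pow_one]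
  rw [Nat.add_comm 1 n, Nat.choose_succ_self_right]

theorem gp_natDegree_le (f : ℝ[X]) (hb : 1 ≤ f.natDegree) (p : ℝ) :
    (gp f p).natDegree ≤ f.natDegree - 1 := by
  rw [natDegree_le_iff_coeff_eq_zero]
  intro N hN
  rw [gp, coeff_sub]
  by_cases h : N = f.natDegree
  · subst h
    rw [coeff_taylor_natDegree]
    exact sub_self _
  · rw [coeff_eq_zero_of_natDegree_lt (p := taylor p f) (by rw [natDegree_taylor]; omega),
      coeff_eq_zero_of_natDegree_lt (p := f) (by omega), sub_zero]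

theorem gp_coeff (f : ℝ[X]) (hb : 1 ≤ f.natDegree) (hf : f.Monic) (p : ℝ) :
    (gp f p).coeff (f.natDegree - 1) = f.natDegree * p := by
  rw [gp, coeff_sub, coeff_taylor_pred f hb, hf.leadingCoeff]
  ring

theorem gp_natDegree (f : ℝ[X]) (hb : 1 ≤ f.natDegree) (hf : f.Monic) {p : ℝ} (hp : p ≠ 0) :
    (gp f p).natDegree = f.natDegree - 1 := by
  refine le_antisymm (gp_natDegree_le f hb p) (le_natDegree_of_ne_zero ?_)
  rw [gp_coeff f hb hf]
  have : (f.natDegree : ℝ) ≠ 0 := by positivity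
  exact mul_ne_zero this hp

theorem gp_leadingCoeff (f : ℝ[X]) (hb : 1 ≤ f.natDegree) (hf : f.Monic) {p : ℝ} (hp : p ≠ 0) :
    (gp f p).leadingCoeff = f.natDegree * p := by
  rw [leadingCoeff, gp_natDegree f hb hf hp, gp_coeff f hb hf]

theorem gp_ne_zero (f : ℝ[X]) (hb : 1 ≤ f.natDegree) (hf : f.Monic) {p : ℝ} (hp : p ≠ 0) :
    gp f p ≠ 0 := by
  rw [← leadingCoeff_ne_zero, gp_leadingCoeff f hb hf hp]
  have : (f.natDegree : ℝ) ≠ 0 := by positivity
  exact mul_ne_zero this hp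

/-- the monomials `f^i g^j` -/
noncomputable def mon (f : ℝ[X]) (p : ℝ) (ij : ℕ × ℕ) : ℝ[X] := f ^ ij.1 * gp f p ^ ij.2

/-- weight -/
def wt (b : ℕ) (ij : ℕ × ℕ) : ℕ := b * ij.1 + (b - 1) * ij.2

theorem mon_natDegree (f : ℝ[X]) (hb : 1 ≤ f.natDegree) (hf : f.Monic) {p : ℝ} (hp : p ≠ 0)
    (ij : ℕ × ℕ) : (mon f p ij).natDegree = wt f.natDegree ij := by
  have h0 : f ≠ 0 := hf.ne_zero
  have h1 := gp_ne_zero f hb hf hp
  rw [mon, natDegree_mul (pow_ne_zero _ h0) (pow_ne_zero _ h1), natDegree_pow, natDegree_pow,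
    gp_natDegree f hb hf hp, wt]
  ring

theorem mon_ne_zero (f : ℝ[X]) (hb : 1 ≤ f.natDegree) (hf : f.Monic) {p : ℝ} (hp : p ≠ 0)
    (ij : ℕ × ℕ) : mon f p ij ≠ 0 :=
  mul_ne_zero (pow_ne_zero _ hf.ne_zero) (pow_ne_zero _ (gp_ne_zero f hb hf hp))

theorem mon_leadingCoeff (f : ℝ[X]) (hb : 1 ≤ f.natDegree) (hf : f.Monic) {p : ℝ} (hp : p ≠ 0)
    (ij : ℕ × ℕ) : (mon f p ij).leadingCoeff = (f.natDegree * p) ^ ij.2 := by
  rw [mon, leadingCoeff_mul, leadingCoeff_pow, leadingCoeff_pow, hf.leadingCoeff, one_pow, one_mul,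
    gp_leadingCoeff f hb hf hp]

theorem mon_coeff_wt (f : ℝ[X]) (hb : 1 ≤ f.natDegree) (hf : f.Monic) {p : ℝ} (hp : p ≠ 0)
    (ij : ℕ × ℕ) : (mon f p ij).coeff (wt f.natDegree ij) = (f.natDegree * p) ^ ij.2 := by
  rw [← mon_natDegree f hb hf hp, ← mon_leadingCoeff f hb hf hp]; rfl

theorem mon_eval (f : ℝ[X]) (p x : ℝ) (ij : ℕ × ℕ) :
    (mon f p ij).eval x = f.eval x ^ ij.1 * (f.eval (x + p) - f.eval x) ^ ij.2 := by
  simp [mon, gp_eval]

/-! ### the case `p = p'` -/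

/-- span of the monomials -/
noncomputable def alg (f : ℝ[X]) (p : ℝ) : Submodule ℝ ℝ[X] :=
  Submodule.span ℝ (Set.range (mon f p))

theorem exists_wt {b n : ℕ} (hb : 1 ≤ b) (hn : (b - 1) ^ 2 ≤ n) : ∃ ij, wt b ij = n := by
  obtain ⟨c, rfl⟩ : ∃ c, b = c + 1 := ⟨b - 1, by omega⟩
  simp only [Nat.add_sub_cancel] at hn ⊢
  rcases Nat.eq_zero_or_pos c with rfl | hc
  · exact ⟨(n, 0), by simp [wt]⟩
  · -- n = q c + r, r < c, q ≥ c > r
    refine ⟨(n % c, n / c - n % c), ?_⟩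
    have h1 : n % c < c := Nat.mod_lt _ hc
    have h2 : c ≤ n / c := by
      rw [Nat.le_div_iff_mul_le hc]
      nlinarith
    have h3 := Nat.div_add_mod n c
    simp only [wt, Nat.add_sub_cancel]
    obtain ⟨t, ht⟩ : ∃ t, n / c = n % c + t := ⟨n / c - n % c, by omega⟩
    rw [ht, Nat.add_sub_cancel_left]
    rw [ht] at h3
    nlinarith

theorem exists_rep (f : ℝ[X]) (hb : 1 ≤ f.natDegree) (hf : f.Monic) {p : ℝ} (hp : p ≠ 0)
    (n : ℕ) : ∀ h ∈ degreeLT ℝ n, ∃ r ∈ degreeLT ℝ ((f.natDegree - 1) ^ 2), h - r ∈ alg f p := by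
  induction n with
  | zero =>
    intro h hh
    have : h = 0 := by
      rw [mem_degreeLT] at hh
      simpa using hh
    exact ⟨0, zero_mem _, by rw [this]; simp⟩
  | succ n ih =>
    intro h hh
    by_cases hn : n < (f.natDegree - 1) ^ 2
    · exact ⟨h, degreeLT_mono (by omega) hh, by simp⟩
    · obtain ⟨ij, hij⟩ := exists_wt (b := f.natDegree) hb (not_lt.mp hn)
      have hlc := mon_coeff_wt f hb hf hp ij
      rw [hij] at hlc
      have hne : (f.natDegree * p) ^ ij.2 ≠ 0 :=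
        pow_ne_zero _ (mul_ne_zero (by positivity) hp)
      set a : ℝ := h.coeff n / (f.natDegree * p) ^ ij.2 with ha
      have h1 : h - a • mon f p ij ∈ degreeLT ℝ n := by
        rw [mem_degreeLT, degree_lt_iff_coeff_zero]
        intro m hm
        rw [coeff_sub, coeff_smul, smul_eq_mul]
        rcases hm.lt_or_eq with h2 | h2
        · rw [mem_degreeLT, degree_lt_iff_coeff_zero] at hh
          rw [hh m (by omega), coeff_eq_zero_of_natDegree_lt]
          · simp
          · rw [mon_natDegree f hb hf hp, hij]; exact h2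
        · rw [← h2, hlc, ha, div_mul_cancel₀ _ hne, sub_self]
      obtain ⟨r, hr, hr2⟩ := ih _ h1
      refine ⟨r, hr, ?_⟩
      have : h - r = (h - a • mon f p ij - r) + a • mon f p ij := by ring
      rw [this]
      exact add_mem hr2 (Submodule.smul_mem _ _ (Submodule.subset_span ⟨ij, rfl⟩))

theorem finrank_degreeLT (n : ℕ) : Module.finrank ℝ (degreeLT ℝ n) = n := by
  rw [(degreeLTEquiv ℝ n).finrank_eq]; simp

instance (n : ℕ) : FiniteDimensional ℝ (degreeLT ℝ n) :=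
  (degreeLTEquiv ℝ n).symm.finiteDimensional

/-- the conductor element -/
theorem exists_cond (f : ℝ[X]) (hb : 1 ≤ f.natDegree) (hf : f.Monic) {p : ℝ} (hp : p ≠ 0) :
    ∃ c : ℝ[X], c ≠ 0 ∧ c.natDegree ≤ 2 * (f.natDegree - 1) ^ 2 ∧ c ∈ alg f p ∧
      X * c ∈ alg f p := by
  set N := (f.natDegree - 1) ^ 2 with hN
  let Q := ℝ[X] ⧸ alg f p
  let π : ℝ[X] →ₗ[ℝ] Q := (alg f p).mkQ
  let ρ : degreeLT ℝ N →ₗ[ℝ] Q := π ∘ₗ (degreeLT ℝ N).subtype
  have hρ : Function.Surjective ρ := by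
    intro q
    obtain ⟨h, rfl⟩ := Submodule.mkQ_surjective _ q
    obtain ⟨r, hr, hr2⟩ := exists_rep f hb hf hp (h.natDegree + 1) h
      (by rw [mem_degreeLT]; exact (degree_le_natDegree).trans_lt (by exact_mod_cast Nat.lt_succ_self _))
    refine ⟨⟨r, hr⟩, ?_⟩
    show (alg f p).mkQ r = (alg f p).mkQ h
    rw [Submodule.mkQ_apply, Submodule.mkQ_apply, eq_comm, Submodule.Quotient.eq]
    exact hr2
  have : FiniteDimensional ℝ Q := Module.Finite.of_surjective ρ hρ
  have hQ : Module.finrank ℝ Q ≤ N := by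
    have := LinearMap.finrank_le_finrank_of_surjective hρ
    rwa [finrank_degreeLT] at this
  let T : degreeLT ℝ (2 * N + 1) →ₗ[ℝ] Q × Q :=
    LinearMap.prod (π ∘ₗ (degreeLT ℝ _).subtype)
      (π ∘ₗ (LinearMap.mulLeft ℝ (X : ℝ[X])) ∘ₗ (degreeLT ℝ _).subtype)
  have hT : LinearMap.ker T ≠ ⊥ := by
    apply LinearMap.ker_ne_bot_of_finrank_lt
    rw [Module.finrank_prod, finrank_degreeLT]
    omega
  obtain ⟨c, hc, hc0⟩ := (Submodule.ne_bot_iff _).mp hT
  rw [LinearMap.mem_ker] at hc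
  have h1 : π c.1 = 0 := congrArg Prod.fst hc
  have h2 : π (X * c.1) = 0 := congrArg Prod.snd hc
  refine ⟨c.1, fun h => hc0 (Subtype.ext h), ?_, ?_, ?_⟩
  · have := c.2
    rw [mem_degreeLT] at this
    have h3 : c.1.natDegree < 2 * N + 1 := by
      rw [natDegree_lt_iff_degree_lt (fun h => hc0 (Subtype.ext h))]
      exact_mod_cast this
    omega
  · rwa [Submodule.mkQ_apply, Submodule.Quotient.mk_eq_zero] at h1
  · rwa [Submodule.mkQ_apply, Submodule.Quotient.mk_eq_zero] at h2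

theorem alg_eval {f : ℝ[X]} {p : ℝ} {x y : ℝ} (h1 : f.eval x = f.eval y)
    (h2 : f.eval (x + p) = f.eval (y + p)) {h : ℝ[X]} (hh : h ∈ alg f p) :
    h.eval x = h.eval y := by
  refine Submodule.span_induction ?_ ?_ ?_ ?_ hh
  · rintro _ ⟨ij, rfl⟩
    rw [mon_eval, mon_eval, h1, h2]
  · simp
  · intro a b _ _ ha hb; simp [ha, hb]
  · intro a b _ hb; simp [hb]

/-- diagonal case: a polynomial of small degree vanishing at all `x` -/
theorem diag_poly (f : ℝ[X]) (hb : 1 ≤ f.natDegree) (hf : f.Monic) {p : ℝ} (hp : p ≠ 0) :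
    ∃ c : ℝ[X], c ≠ 0 ∧ c.natDegree ≤ 2 * f.natDegree ^ 2 ∧
      ∀ x y, x ≠ y → f.eval x = f.eval y → f.eval (x + p) = f.eval (y + p) → c.eval x = 0 := by
  obtain ⟨c, h0, h1, h2, h3⟩ := exists_cond f hb hf hp
  refine ⟨c, h0, h1.trans ?_, ?_⟩
  · have : (f.natDegree - 1) ^ 2 ≤ f.natDegree ^ 2 := Nat.pow_le_pow_left (by omega) 2
    omega
  · intro x y hxy e1 e2
    have a1 := alg_eval e1 e2 h2
    have a2 := alg_eval e1 e2 h3
    rw [eval_mul, eval_mul, eval_X, eval_X, ← a1] at a2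
    have a3 : (x - y) * c.eval x = 0 := by linear_combination a2
    exact (mul_eq_zero.mp a3).resolve_left (sub_ne_zero.mpr hxy)

/-! ### the case `p ≠ p'` -/

/-- triangle -/
def triS (n : ℕ) : Finset (ℕ × ℕ) := (range n).biUnion (fun k => antidiagonal k)

theorem mem_triS {n : ℕ} {ij : ℕ × ℕ} : ij ∈ triS n ↔ ij.1 + ij.2 < n := by
  simp [triS]

theorem card_triS (n : ℕ) : 2 * (triS n).card = n * (n + 1) := by
  rw [triS, card_biUnion]
  · simp only [Nat.card_antidiagonal]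
    induction n with
    | zero => simp
    | succ n ih => rw [sum_range_succ, mul_add, ih]; ring
  · intro a _ c _ hac
    rw [Function.onFun, Finset.disjoint_left]
    intro x hx hx'
    rw [HasAntidiagonal.mem_antidiagonal] at hx hx'
    exact hac (hx.symm.trans hx')

/-- index set -/
def MM (b : ℕ) : Finset (ℕ × ℕ) := (triS (2 * b - 1)).erase (2 * b - 2, 0)

theorem card_MM {b : ℕ} (hb : 2 ≤ b) : 2 * b * (b - 1) < (MM b).card := by
  have h1 := card_triS (2 * b - 1)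
  have h2 : (2 * b - 2, 0) ∈ triS (2 * b - 1) := by rw [mem_triS]; simp; omega
  rw [MM, card_erase_of_mem h2]
  obtain ⟨c, rfl⟩ : ∃ c, b = c + 2 := ⟨b - 2, by omega⟩
  have e1 : 2 * (c + 2) - 1 = 2 * c + 3 := by omega
  have e2 : c + 2 - 1 = c + 1 := by omega
  rw [e1] at h1 ⊢
  rw [e2]
  have h3 : 2 * (triS (2 * c + 3)).card = 4 * c * c + 14 * c + 12 := by rw [h1]; ring
  have h4 : 2 * (c + 2) * (c + 1) = 2 * c * c + 6 * c + 4 := by ring
  have h5 : 4 * c * c = 2 * (2 * c * c) := by ring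
  omega

theorem MM_wt {b : ℕ} (hb : 2 ≤ b) {ij : ℕ × ℕ} (h : ij ∈ MM b) : wt b ij < 2 * b * (b - 1) := by
  rw [MM, mem_erase, mem_triS] at h
  obtain ⟨h1, h2⟩ := h
  obtain ⟨i, j⟩ := ij
  simp only [wt] at *
  obtain ⟨c, rfl⟩ : ∃ c, b = c + 1 := ⟨b - 1, by omega⟩
  simp only [Nat.add_sub_cancel] at *
  have h3 : 2 * (c + 1) - 1 = 2 * c + 1 := by omega
  have h4 : 2 * (c + 1) - 2 = 2 * c := by omega
  rw [h3] at h2
  rw [h4] at h1
  rcases Nat.eq_zero_or_pos j with rfl | hj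
  · have h5 : i < 2 * c := by
      by_contra hh
      exact h1 (by congr 1; omega)
    nlinarith
  · have : i + j ≤ 2 * c := by omega
    nlinarith

theorem MM_lt {b : ℕ} {ij : ℕ × ℕ} (h : ij ∈ MM b) : ij.2 < 2 * b := by
  rw [MM, mem_erase, mem_triS] at h
  omega

theorem wt_mod {b : ℕ} (hb : 1 ≤ b) {x y : ℕ × ℕ} (h : wt b x = wt b y) :
    x.2 % b = y.2 % b := by
  obtain ⟨c, rfl⟩ : ∃ c, b = c + 1 := ⟨b - 1, by omega⟩
  simp only [wt, Nat.add_sub_cancel] at h
  have h1 : y.2 + (c + 1) * (x.1 + x.2) = x.2 + (c + 1) * (y.1 + y.2) := by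
    linear_combination h
  have h2 : (y.2 + (c + 1) * (x.1 + x.2)) % (c + 1) = (x.2 + (c + 1) * (y.1 + y.2)) % (c + 1) := by
    rw [h1]
  rw [Nat.add_mul_mod_self_left, Nat.add_mul_mod_self_left] at h2
  exact h2.symm

theorem wt_inj {b : ℕ} (hb : 1 ≤ b) {x y : ℕ × ℕ} (h : wt b x = wt b y) (h2 : x.2 = y.2) :
    x = y := by
  simp only [wt, h2] at h
  have : x.1 = y.1 := by
    have h3 : b * x.1 = b * y.1 := by omega
    exact Nat.eq_of_mul_eq_mul_left (by omega) h3
  exact Prod.ext this h2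

theorem two_cases {b e j : ℕ} (hj : j < 2 * b) (h : j % b = e) : j = e ∨ j = e + b := by
  have h1 := Nat.div_add_mod j b
  have h2 : j / b < 2 := by
    rw [Nat.div_lt_iff_lt_mul (by omega)]; omega
  rw [h] at h1
  interval_cases hq : j / b
  · left; omega
  · right; omega

section offdiag

variable (f : ℝ[X])

/-- `∑ Q_{ij} f^i g^j` -/
noncomputable def Phi (p : ℝ) : (MM f.natDegree → ℝ) →ₗ[ℝ] ℝ[X] :=
  Fintype.linearCombination ℝ (fun m : MM f.natDegree => mon f p m.1)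

theorem Phi_apply (p : ℝ) (Q : MM f.natDegree → ℝ) :
    Phi f p Q = ∑ m, Q m • mon f p m.1 := by
  rw [Phi, Fintype.linearCombination_apply]

theorem Phi_eval (p x : ℝ) (Q : MM f.natDegree → ℝ) :
    (Phi f p Q).eval x
      = ∑ m, Q m * (f.eval x ^ m.1.1 * (f.eval (x + p) - f.eval x) ^ m.1.2) := by
  rw [Phi_apply, eval_finsetSum]
  refine sum_congr rfl fun m _ => ?_
  rw [eval_smul, mon_eval, smul_eq_mul]

theorem Phi_degree (hb : 2 ≤ f.natDegree) (hf : f.Monic) {p : ℝ} (hp : p ≠ 0)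
    (Q : MM f.natDegree → ℝ) :
    Phi f p Q ∈ degreeLT ℝ (2 * f.natDegree * (f.natDegree - 1)) := by
  rw [Phi_apply]
  refine sum_mem fun m _ => Submodule.smul_mem _ _ ?_
  rw [mem_degreeLT, degree_eq_natDegree (mon_ne_zero f (by omega) hf hp _),
    mon_natDegree f (by omega) hf hp]
  exact_mod_cast MM_wt hb m.2

theorem Phi_coeff (hb : 2 ≤ f.natDegree) (hf : f.Monic) {p : ℝ} (hp : p ≠ 0)
    (Q : MM f.natDegree → ℝ) (W : ℕ) (hW : ∀ m, Q m ≠ 0 → wt f.natDegree m.1 ≤ W) :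
    (Phi f p Q).coeff W
      = ∑ m ∈ univ.filter (fun m : MM f.natDegree => wt f.natDegree m.1 = W),
          Q m * (f.natDegree * p) ^ m.1.2 := by
  rw [Phi_apply, finsetSum_coeff, sum_filter]
  refine sum_congr rfl fun m _ => ?_
  rw [coeff_smul, smul_eq_mul]
  split_ifs with h
  · rw [← h, mon_coeff_wt f (by omega) hf hp]
  · by_cases hQ : Q m = 0
    · rw [hQ, zero_mul]
    · have := hW m hQ
      rw [coeff_eq_zero_of_natDegree_lt, mul_zero]
      rw [mon_natDegree f (by omega) hf hp]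
      omega

theorem offdiag_poly (hodd : Odd f.natDegree) (hb : 2 ≤ f.natDegree) (hf : f.Monic)
    {p p' : ℝ} (hp : p ≠ 0) (hp' : p' ≠ 0) (hpp : p ≠ p') :
    ∃ c : ℝ[X], c ≠ 0 ∧ c.natDegree ≤ 2 * f.natDegree ^ 2 ∧
      ∀ x y, f.eval x = f.eval y → f.eval (x + p) = f.eval (y + p') → c.eval x = 0 := by
  set b := f.natDegree with hbdef
  -- a kernel element
  let Φ : (MM b → ℝ) →ₗ[ℝ] degreeLT ℝ (2 * b * (b - 1)) :=
    (Phi f p').codRestrict _ (Phi_degree f hb hf hp')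
  have hker : LinearMap.ker Φ ≠ ⊥ := by
    apply LinearMap.ker_ne_bot_of_finrank_lt
    rw [finrank_degreeLT, Module.finrank_fintype_fun_eq_card, Fintype.card_coe]
    exact card_MM hb
  obtain ⟨Q, hQ, hQ0⟩ := (Submodule.ne_bot_iff _).mp hker
  rw [LinearMap.mem_ker] at hQ
  have hQ' : Phi f p' Q = 0 := congrArg Subtype.val hQ
  refine ⟨Phi f p Q, ?_, ?_, ?_⟩
  · intro h0
    -- an element of maximal weight
    obtain ⟨m1, hm1⟩ : ∃ m, Q m ≠ 0 := by
      by_contra hh
      push Not at hh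
      exact hQ0 (funext hh)
    obtain ⟨m0, hm0, hmax⟩ := Finset.exists_max_image (univ.filter (fun m => Q m ≠ 0))
      (fun m => wt b m.1) ⟨m1, by simpa using hm1⟩
    rw [mem_filter] at hm0
    have hW : ∀ m, Q m ≠ 0 → wt b m.1 ≤ wt b m0.1 := fun m hm => hmax m (by simpa using hm)
    set F := univ.filter (fun m : MM b => wt b m.1 = wt b m0.1) with hF
    set e := m0.1.2 % b with he
    set α := ∑ m ∈ F.filter (fun m => m.1.2 = e), Q m with hα
    set β := ∑ m ∈ F.filter (fun m => ¬ m.1.2 = e), Q m with hβ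
    have hcases : ∀ m ∈ F, m.1.2 = e ∨ m.1.2 = e + b := by
      intro m hm
      refine two_cases (MM_lt m.2) ?_
      exact wt_mod (by omega) (mem_filter.mp hm).2
    have key : ∀ t : ℝ, t ≠ 0 → Phi f t Q = 0 → α + β * (b * t) ^ b = 0 := by
      intro t ht h
      have h1 : (Phi f t Q).coeff (wt b m0.1) = ∑ m ∈ F, Q m * ((b : ℝ) * t) ^ m.1.2 :=
        Phi_coeff f hb hf ht Q (wt b m0.1) hW
      rw [h, coeff_zero, ← sum_filter_add_sum_filter_not F (fun m => m.1.2 = e)] at h1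
      have h2 : ∑ m ∈ F.filter (fun m => m.1.2 = e), Q m * ((b : ℝ) * t) ^ m.1.2
          = α * (b * t) ^ e := by
        rw [hα, sum_mul]
        refine sum_congr rfl fun m hm => ?_
        rw [(mem_filter.mp hm).2]
      have h3 : ∑ m ∈ F.filter (fun m => ¬ m.1.2 = e), Q m * ((b : ℝ) * t) ^ m.1.2
          = β * (b * t) ^ (e + b) := by
        rw [hβ, sum_mul]
        refine sum_congr rfl fun m hm => ?_
        have hm' := mem_filter.mp hm
        rw [(hcases m hm'.1).resolve_left hm'.2]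
      rw [h2, h3, pow_add] at h1
      have h4 : ((b : ℝ) * t) ^ e ≠ 0 := pow_ne_zero _ (mul_ne_zero (by positivity) ht)
      have h5 : ((b : ℝ) * t) ^ e * (α + β * (b * t) ^ b) = 0 := by linear_combination -h1
      exact (mul_eq_zero.mp h5).resolve_left h4
    have k1 := key p hp h0
    have k2 := key p' hp' hQ'
    have hne : ((b : ℝ) * p) ^ b ≠ (b * p') ^ b := by
      intro h
      have h1 := hodd.strictMono_pow.injective h
      have h2 : (b : ℝ) ≠ 0 := by positivity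
      exact hpp (mul_left_cancel₀ h2 h1)
    have hβ0 : β = 0 := by
      have : β * (((b : ℝ) * p) ^ b - (b * p') ^ b) = 0 := by linear_combination k1 - k2
      exact (mul_eq_zero.mp this).resolve_right (sub_ne_zero.mpr hne)
    have hα0 : α = 0 := by rw [hβ0] at k1; linarith
    have hm0F : m0 ∈ F := by rw [hF, mem_filter]; exact ⟨mem_univ _, rfl⟩
    have huniq : ∀ m ∈ F, m.1.2 = m0.1.2 → m = m0 := by
      intro m hm h
      exact Subtype.ext (wt_inj (by omega) (mem_filter.mp hm).2 h)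
    rcases hcases m0 hm0F with h | h
    · apply hm0.2
      rw [← hα0, hα]
      symm
      refine sum_eq_single_of_mem m0 (mem_filter.mpr ⟨hm0F, h⟩) ?_
      intro m hm hne
      have hm' := mem_filter.mp hm
      exact absurd (huniq m hm'.1 (hm'.2.trans h.symm)) hne
    · apply hm0.2
      rw [← hβ0, hβ]
      symm
      refine sum_eq_single_of_mem m0 (mem_filter.mpr ⟨hm0F, by omega⟩) ?_
      intro m hm hne
      have hm' := mem_filter.mp hm
      exact absurd (huniq m hm'.1 (((hcases m hm'.1).resolve_left hm'.2).trans h.symm)) hne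
  · have := Phi_degree f hb hf hp Q
    rw [mem_degreeLT] at this
    have h1 : (Phi f p Q).natDegree ≤ 2 * f.natDegree * (f.natDegree - 1) := by
      rw [natDegree_le_iff_degree_le]
      exact this.le
    refine h1.trans ?_
    rw [← hbdef, mul_assoc, pow_two]
    exact Nat.mul_le_mul_left 2 (Nat.mul_le_mul_left b (by omega))
  · intro x y e1 e2
    rw [Phi_eval, e1, e2]
    have := congrArg (fun q : ℝ[X] => q.eval y) hQ'
    simpa [Phi_eval] using this

end offdiag

/-! ### multiplicity of a difference vector -/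

section count
variable (f : ℝ[X])

theorem mult_le (hodd : Odd f.natDegree) (hb : 2 ≤ f.natDegree) (hf : f.Monic)
    {p p' : ℤ} (hp : p ≠ 0) (hp' : p' ≠ 0) (S : Finset (ℤ × ℤ))
    (hS : ∀ z ∈ S, z.1 ≠ z.2 ∧ f.eval (z.1 : ℝ) = f.eval (z.2 : ℝ) ∧
      f.eval ((z.1 + p : ℤ) : ℝ) = f.eval ((z.2 + p' : ℤ) : ℝ)) :
    S.card ≤ 2 * f.natDegree ^ 3 := by
  obtain ⟨c, hc0, hcd, hc⟩ : ∃ c : ℝ[X], c ≠ 0 ∧ c.natDegree ≤ 2 * f.natDegree ^ 2 ∧
      ∀ x y : ℝ, x ≠ y → f.eval x = f.eval y → f.eval (x + p) = f.eval (y + p') →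
        c.eval x = 0 := by
    by_cases hpp : p = p'
    · subst hpp
      exact diag_poly f (by omega) hf (by exact_mod_cast hp)
    · obtain ⟨c, h0, h1, h2⟩ := offdiag_poly f hodd hb hf (p := p) (p' := p')
        (by exact_mod_cast hp) (by exact_mod_cast hp') (by exact_mod_cast hpp)
      exact ⟨c, h0, h1, fun x y _ => h2 x y⟩
  have h1 : S.card ≤ f.natDegree * (S.image Prod.fst).card := by
    refine card_le_mul_card_image S f.natDegree ?_
    intro x hx
    have hne : f - C (f.eval (x : ℝ)) ≠ 0 := by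
      intro h
      have : f.natDegree = 0 := by
        rw [sub_eq_zero.mp h]; exact natDegree_C _
      omega
    have h2 : ((S.filter (fun z => z.1 = x)).image (fun z => (z.2 : ℝ))) ⊆
        (f - C (f.eval (x : ℝ))).roots.toFinset := by
      intro y hy
      rw [mem_image] at hy
      obtain ⟨z, hz, rfl⟩ := hy
      rw [mem_filter] at hz
      rw [Multiset.mem_toFinset, mem_roots hne, IsRoot, eval_sub, eval_C, ← hz.2,
        (hS z hz.1).2.1, sub_self]
    have h3 : (S.filter (fun z => z.1 = x)).card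
        = ((S.filter (fun z => z.1 = x)).image (fun z => (z.2 : ℝ))).card := by
      rw [card_image_of_injOn]
      intro z hz z' hz' h
      rw [mem_coe, mem_filter] at hz hz'
      have : z.2 = z'.2 := Int.cast_injective h
      exact Prod.ext (hz.2.trans hz'.2.symm) this
    rw [h3]
    refine (card_le_card h2).trans ((Multiset.toFinset_card_le _).trans ?_)
    refine (card_roots' _).trans ?_
    exact (natDegree_sub_C).le
  have h2 : (S.image Prod.fst).card ≤ 2 * f.natDegree ^ 2 := by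
    have h3 : (S.image Prod.fst).image (fun x : ℤ => (x : ℝ)) ⊆ c.roots.toFinset := by
      intro y hy
      rw [image_image, mem_image] at hy
      obtain ⟨z, hz, rfl⟩ := hy
      rw [Multiset.mem_toFinset, mem_roots hc0, IsRoot]
      obtain ⟨a1, a2, a3⟩ := hS z hz
      refine hc z.1 z.2 (by exact_mod_cast a1) a2 ?_
      simpa using a3
    have h4 : (S.image Prod.fst).card = ((S.image Prod.fst).image (fun x : ℤ => (x : ℝ))).card := by
      rw [card_image_of_injective _ Int.cast_injective]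
    rw [h4]
    exact (card_le_card h3).trans ((Multiset.toFinset_card_le _).trans
      ((card_roots' _).trans hcd))
  calc S.card ≤ f.natDegree * (S.image Prod.fst).card := h1
    _ ≤ f.natDegree * (2 * f.natDegree ^ 2) := Nat.mul_le_mul_left _ h2
    _ = 2 * f.natDegree ^ 3 := by ring

/-! ### monotone classes -/

/-- class of `x`: number of critical points `≤ x` -/
noncomputable def kap (x : ℤ) : ℕ :=
  (f.derivative.roots.toFinset.filter (fun r => r ≤ (x : ℝ))).card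

theorem kap_lt (hb : 1 ≤ f.natDegree) (x : ℤ) : kap f x < f.natDegree := by
  refine (card_le_card (filter_subset _ _)).trans_lt ?_
  refine (Multiset.toFinset_card_le _).trans_lt ?_
  refine (card_roots' _).trans_lt ?_
  refine (natDegree_derivative_le f).trans_lt ?_
  omega

theorem no_root {x y : ℤ} (h : kap f x = kap f y) (hf : f.derivative ≠ 0) {z : ℝ}
    (h1 : (x : ℝ) < z) (h2 : z ≤ y) : f.derivative.eval z ≠ 0 := by
  intro hz
  have hlt : kap f x < kap f y := by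
    apply card_lt_card
    rw [ssubset_iff_of_subset]
    · refine ⟨z, ?_, ?_⟩
      · rw [mem_filter, Multiset.mem_toFinset, mem_roots hf]
        exact ⟨hz, h2⟩
      · rw [mem_filter]
        rintro ⟨_, h3⟩
        exact absurd h3 (not_le.mpr h1)
    · intro r hr
      rw [mem_filter] at hr ⊢
      exact ⟨hr.1, by linarith [hr.2]⟩
  omega

theorem strict_on {x y : ℤ} (hxy : x ≤ y) (h : kap f x = kap f y) (hf : f.derivative ≠ 0) :
    StrictMonoOn (fun t : ℝ => f.eval t) (Set.Icc (x : ℝ) y) ∨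
      StrictAntiOn (fun t : ℝ => f.eval t) (Set.Icc (x : ℝ) y) := by
  refine ContinuousOn.strictMonoOn_of_injOn_Icc' (by exact_mod_cast hxy)
    f.continuous.continuousOn ?_
  have aux : ∀ u ∈ Set.Icc (x : ℝ) y, ∀ v ∈ Set.Icc (x : ℝ) y, u < v → f.eval u ≠ f.eval v := by
    intro u hu v hv huv he
    obtain ⟨z, hz, hz'⟩ := exists_deriv_eq_zero huv f.continuous.continuousOn he
    rw [Polynomial.deriv] at hz'
    exact no_root f h hf (lt_of_le_of_lt hu.1 hz.1) (hz.2.le.trans hv.2) hz'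
  intro u hu v hv he
  rcases lt_trichotomy u v with h1 | h1 | h1
  · exact absurd he (aux u hu v hv h1)
  · exact h1
  · exact absurd he.symm (aux v hv u hu h1)

theorem class_inj {x y : ℤ} (h : kap f x = kap f y) (hf : f.derivative ≠ 0)
    (he : f.eval (x : ℝ) = f.eval (y : ℝ)) : x = y := by
  wlog hxy : x ≤ y generalizing x y
  · exact (this h.symm he.symm (by omega)).symm
  have hx : (x : ℝ) ∈ Set.Icc (x : ℝ) y := ⟨le_rfl, by exact_mod_cast hxy⟩
  have hy : (y : ℝ) ∈ Set.Icc (x : ℝ) y := ⟨by exact_mod_cast hxy, le_rfl⟩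
  rcases strict_on f hxy h hf with h1 | h1
  · exact_mod_cast h1.injOn hx hy he
  · exact_mod_cast h1.injOn hx hy he

/-- on a class the order of values determines the order (up to a global reversal) -/
theorem class_between {x₁ x₂ x₃ y₁ y₂ y₃ : ℤ} (hf : f.derivative ≠ 0)
    (hx13 : kap f x₁ = kap f x₃)
    (hy12 : kap f y₁ = kap f y₂) (hy13 : kap f y₁ = kap f y₃)
    (h12 : x₁ < x₂) (h23 : x₂ < x₃)
    (e1 : f.eval (x₁ : ℝ) = f.eval (y₁ : ℝ)) (e2 : f.eval (x₂ : ℝ) = f.eval (y₂ : ℝ))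
    (e3 : f.eval (x₃ : ℝ) = f.eval (y₃ : ℝ)) :
    (y₁ < y₂ ∧ y₂ < y₃) ∨ (y₃ < y₂ ∧ y₂ < y₁) := by
  have c12 : (x₁ : ℝ) < x₂ := by exact_mod_cast h12
  have c23 : (x₂ : ℝ) < x₃ := by exact_mod_cast h23
  have m1 : (x₁ : ℝ) ∈ Set.Icc (x₁ : ℝ) x₃ := ⟨le_rfl, by linarith⟩
  have m2 : (x₂ : ℝ) ∈ Set.Icc (x₁ : ℝ) x₃ := ⟨by linarith, by linarith⟩
  have m3 : (x₃ : ℝ) ∈ Set.Icc (x₁ : ℝ) x₃ := ⟨by linarith, le_rfl⟩
  -- values are monotone
  have hval : (f.eval (y₁ : ℝ) < f.eval (y₂ : ℝ) ∧ f.eval (y₂ : ℝ) < f.eval (y₃ : ℝ)) ∨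
      (f.eval (y₃ : ℝ) < f.eval (y₂ : ℝ) ∧ f.eval (y₂ : ℝ) < f.eval (y₁ : ℝ)) := by
    rw [← e1, ← e2, ← e3]
    rcases strict_on f (by omega : x₁ ≤ x₃) hx13 hf with h | h
    · exact Or.inl ⟨h m1 m2 c12, h m2 m3 c23⟩
    · exact Or.inr ⟨h m2 m3 c23, h m1 m2 c12⟩
  -- the interval spanned by the `y`s
  set lo := min y₁ (min y₂ y₃) with hlo
  set hi := max y₁ (max y₂ y₃) with hhi
  have hlo' : kap f lo = kap f y₁ := by
    rw [hlo]
    rcases min_choice y₁ (min y₂ y₃) with h | h <;> rw [h]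
    rcases min_choice y₂ y₃ with h | h <;> rw [h]
    · exact hy12.symm
    · exact hy13.symm
  have hhi' : kap f hi = kap f y₁ := by
    rw [hhi]
    rcases max_choice y₁ (max y₂ y₃) with h | h <;> rw [h]
    rcases max_choice y₂ y₃ with h | h <;> rw [h]
    · exact hy12.symm
    · exact hy13.symm
  have b1 : lo ≤ y₁ ∧ y₁ ≤ hi := by omega
  have b2 : lo ≤ y₂ ∧ y₂ ≤ hi := by omega
  have b3 : lo ≤ y₃ ∧ y₃ ≤ hi := by omega
  have n1 : (y₁ : ℝ) ∈ Set.Icc (lo : ℝ) hi := ⟨by exact_mod_cast b1.1, by exact_mod_cast b1.2⟩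
  have n2 : (y₂ : ℝ) ∈ Set.Icc (lo : ℝ) hi := ⟨by exact_mod_cast b2.1, by exact_mod_cast b2.2⟩
  have n3 : (y₃ : ℝ) ∈ Set.Icc (lo : ℝ) hi := ⟨by exact_mod_cast b3.1, by exact_mod_cast b3.2⟩
  rcases strict_on f (by omega : lo ≤ hi) (hlo'.trans hhi'.symm) hf with h | h
  · rcases hval with ⟨v1, v2⟩ | ⟨v1, v2⟩
    · exact Or.inl ⟨by exact_mod_cast (h.lt_iff_lt n1 n2).mp v1,
        by exact_mod_cast (h.lt_iff_lt n2 n3).mp v2⟩
    · exact Or.inr ⟨by exact_mod_cast (h.lt_iff_lt n3 n2).mp v1,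
        by exact_mod_cast (h.lt_iff_lt n2 n1).mp v2⟩
  · rcases hval with ⟨v1, v2⟩ | ⟨v1, v2⟩
    · exact Or.inr ⟨by exact_mod_cast (h.lt_iff_gt n2 n3).mp v2,
        by exact_mod_cast (h.lt_iff_gt n1 n2).mp v1⟩
    · exact Or.inl ⟨by exact_mod_cast (h.lt_iff_gt n2 n1).mp v2,
        by exact_mod_cast (h.lt_iff_gt n3 n2).mp v1⟩

/-! ### counting coincidences -/

open Classical in
/-- coincidences in the window `[0,w)` -/
noncomputable def CO (w : ℕ) : Finset (ℤ × ℤ) :=
  (Ico (0 : ℤ) w ×ˢ Ico (0 : ℤ) w).filter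
    (fun z => z.1 ≠ z.2 ∧ f.eval (z.1 : ℝ) = f.eval (z.2 : ℝ))

theorem mem_CO {w : ℕ} {z : ℤ × ℤ} : z ∈ CO f w ↔
    ((0 ≤ z.1 ∧ z.1 < w) ∧ (0 ≤ z.2 ∧ z.2 < w)) ∧ z.1 ≠ z.2 ∧
      f.eval (z.1 : ℝ) = f.eval (z.2 : ℝ) := by
  simp [CO, mem_product]

open Classical in
/-- coincidences with a short successor -/
noncomputable def Good (w s : ℕ) : Finset (ℤ × ℤ) :=
  (CO f w).filter (fun z => ∃ q ∈ Icc (1 : ℤ) s ×ˢ (Icc (-(s : ℤ)) s).erase 0,
    (z.1 + q.1, z.2 + q.2) ∈ CO f w)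

open Classical in
theorem good_card (hodd : Odd f.natDegree) (hb : 2 ≤ f.natDegree) (hf : f.Monic) (w s : ℕ) :
    (Good f w s).card ≤ 4 * f.natDegree ^ 3 * s ^ 2 := by
  have hsub : Good f w s ⊆ (Icc (1 : ℤ) s ×ˢ (Icc (-(s : ℤ)) s).erase 0).biUnion
      (fun q => (CO f w).filter (fun z => (z.1 + q.1, z.2 + q.2) ∈ CO f w)) := by
    intro z hz
    rw [Good, mem_filter] at hz
    obtain ⟨h1, q, hq, h2⟩ := hz
    rw [mem_biUnion]
    exact ⟨q, hq, mem_filter.mpr ⟨h1, h2⟩⟩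
  refine (card_le_card hsub).trans ?_
  refine (card_biUnion_le_card_mul _ _ (2 * f.natDegree ^ 3) ?_).trans ?_
  · intro q hq
    rw [mem_product, mem_Icc, mem_erase] at hq
    refine mult_le f hodd hb hf (p := q.1) (p' := q.2) (by omega) hq.2.1 _ ?_
    intro z hz
    rw [mem_filter, mem_CO, mem_CO] at hz
    exact ⟨hz.1.2.1, hz.1.2.2, hz.2.2.2⟩
  · rw [card_product, card_erase_of_mem (by rw [mem_Icc]; omega), Int.card_Icc, Int.card_Icc]
    have e1 : ((s : ℤ) + 1 - 1).toNat = s := by omega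
    have e2 : ((s : ℤ) + 1 - -(s : ℤ)).toNat - 1 = 2 * s := by omega
    rw [e1, e2]
    apply le_of_eq
    ring

/-- two coincidences in the same pair of classes -/
def Same (z z' : ℤ × ℤ) : Prop := kap f z.1 = kap f z'.1 ∧ kap f z.2 = kap f z'.2

theorem kap_mono {x y : ℤ} (h : x ≤ y) : kap f x ≤ kap f y := by
  apply card_le_card
  intro r hr
  rw [mem_filter] at hr ⊢
  have : (x : ℝ) ≤ y := by exact_mod_cast h
  exact ⟨hr.1, hr.2.trans this⟩

open Classical in
theorem bad_card (hb : 1 ≤ f.natDegree) (hf : f.derivative ≠ 0) (w s : ℕ) (hs : 1 ≤ s) :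
    (CO f w \ Good f w s).card ≤ 2 * (f.natDegree * (w / s + f.natDegree)) := by
  set R := CO f w \ Good f w s with hR
  have hRm : ∀ z ∈ R, z ∈ CO f w := fun z hz => (mem_sdiff.mp hz).1
  have hbad : ∀ z ∈ R, ∀ z' ∈ CO f w, z.1 < z'.1 → z'.1 ≤ z.1 + s → z'.2 ≠ z.2 →
      ¬ (z'.2 ≤ z.2 + s ∧ z.2 ≤ z'.2 + s) := by
    intro z hz z' hz' h1 h2 h3 h4
    rw [hR, mem_sdiff] at hz
    apply hz.2
    rw [Good, mem_filter]
    refine ⟨hz.1, (z'.1 - z.1, z'.2 - z.2), ?_, ?_⟩
    · rw [mem_product, mem_Icc, mem_erase, mem_Icc]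
      refine ⟨by constructor <;> simp only <;> omega, ?_, ?_, ?_⟩ <;> simp only
      · intro h; exact h3 (by omega)
      · omega
      · omega
    · simpa using hz'
  -- distinct elements have distinct coordinates
  have hinj1 : ∀ z ∈ R, ∀ z' ∈ R, kap f z.2 = kap f z'.2 → z.1 = z'.1 → z = z' := by
    intro z hz z' hz' hk h
    refine Prod.ext h (class_inj f hk hf ?_)
    rw [← (mem_CO f).mp (hRm z hz) |>.2.2, ← (mem_CO f).mp (hRm z' hz') |>.2.2, h]
  have hinj2 : ∀ z ∈ R, ∀ z' ∈ R, kap f z.1 = kap f z'.1 → z.2 = z'.2 → z = z' := by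
    intro z hz z' hz' hk h
    refine Prod.ext (class_inj f hk hf ?_) h
    rw [(mem_CO f).mp (hRm z hz) |>.2.2, (mem_CO f).mp (hRm z' hz') |>.2.2, h]
  -- type A
  set A := R.filter (fun z => ∀ z' ∈ R, Same f z z' → z.1 < z'.1 → z.1 + s < z'.1) with hA
  set B := R.filter (fun z => ¬ ∀ z' ∈ R, Same f z z' → z.1 < z'.1 → z.1 + s < z'.1) with hB
  have hsZ : (0 : ℤ) < s := by exact_mod_cast hs
  have hblock : ∀ u v : ℤ, u / s = v / s → u < v → v < u + s := by
    intro u v h huv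
    have h1 := Int.emod_add_mul_ediv u s
    have h2 := Int.emod_add_mul_ediv v s
    have h3 := Int.emod_nonneg u hsZ.ne'
    have h4 := Int.emod_lt_of_pos v hsZ
    rw [h] at h1
    omega
  set T : Finset (ℕ × ℤ) := range f.natDegree ×ˢ Ico (0 : ℤ) ((w / s + f.natDegree : ℕ) : ℤ)
    with hT
  have hTc : T.card = f.natDegree * (w / s + f.natDegree) := by
    rw [hT, card_product, card_range, Int.card_Ico, Int.sub_zero, Int.toNat_natCast]
  have hrange : ∀ u v : ℤ, 0 ≤ u → u < w → (kap f v, (kap f u : ℤ) + u / s) ∈ T := by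
    intro u v h1 h2
    rw [hT, mem_product, mem_range, mem_Ico]
    have hk := kap_lt f hb u
    have : u / s ≤ (w : ℤ) / s := Int.ediv_le_ediv hsZ h2.le
    have h0 : 0 ≤ u / s := Int.ediv_nonneg h1 hsZ.le
    refine ⟨kap_lt f hb v, by omega, ?_⟩
    push_cast
    omega
  have hsep : ∀ u v : ℤ, u < v → (kap f u : ℤ) + u / s = (kap f v : ℤ) + v / s →
      kap f u = kap f v ∧ u / s = v / s := by
    intro u v huv h
    have h1 := kap_mono f huv.le
    have h2 : u / s ≤ v / s := Int.ediv_le_ediv hsZ huv.le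
    omega
  have hAc : A.card ≤ T.card := by
    refine card_le_card_of_injOn (fun z => (kap f z.2, (kap f z.1 : ℤ) + z.1 / s)) ?_ ?_
    · intro z hz
      rw [mem_coe, hA, mem_filter] at hz
      have := ((mem_CO f).mp (hRm z hz.1)).1.1
      exact mem_coe.mpr (hrange _ _ this.1 this.2)
    · intro z hz z' hz' h
      simp only [Prod.mk.injEq] at h
      rw [mem_coe, hA, mem_filter] at hz hz'
      rcases lt_trichotomy z.1 z'.1 with h1 | h1 | h1
      · obtain ⟨g1, g2⟩ := hsep _ _ h1 h.2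
        have h2 := hz.2 z' hz'.1 ⟨g1, h.1⟩ h1
        have h3 := hblock _ _ g2 h1
        omega
      · exact hinj1 z hz.1 z' hz'.1 h.1 h1
      · obtain ⟨g1, g2⟩ := hsep _ _ h1 h.2.symm
        have h2 := hz'.2 z hz.1 ⟨g1, h.1.symm⟩ h1
        have h3 := hblock _ _ g2 h1
        omega
  have hBkey : ∀ z ∈ B, ∀ z' ∈ B, Same f z z' → z.1 < z'.1 → z.2 / s ≠ z'.2 / s := by
    intro z hz z' hz' hsame h1 h
    rw [hB, mem_filter] at hz hz'
    have hne : z'.2 ≠ z.2 := fun h2 => by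
      have := hinj2 z' hz'.1 z hz.1 hsame.1.symm h2
      rw [this] at h1; omega
    have hnear : z'.2 ≤ z.2 + s ∧ z.2 ≤ z'.2 + s := by
      rcases lt_or_gt_of_ne hne with h2 | h2
      · have := hblock _ _ h.symm h2; omega
      · have := hblock _ _ h h2; omega
    have hfar : z.1 + s < z'.1 := by
      by_contra hh
      exact hbad z hz.1 z' (hRm z' hz'.1) h1 (by omega) hne hnear
    have hzB := hz.2
    push Not at hzB
    obtain ⟨z'', hz'', hs'', h3, h4⟩ := hzB
    have h5 : z''.1 < z'.1 := by omega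
    have hne2 : z''.2 ≠ z.2 := fun h2 => by
      have := hinj2 z'' hz'' z hz.1 hs''.1.symm h2
      rw [this] at h3; omega
    have h6 := hbad z hz.1 z'' (hRm z'' hz'') h3 h4 hne2
    have h7 := class_between f hf (x₁ := z.1) (x₂ := z''.1) (x₃ := z'.1) (y₁ := z.2)
      (y₂ := z''.2) (y₃ := z'.2) hsame.1 hs''.2 hsame.2 h3 h5
      ((mem_CO f).mp (hRm _ hz.1)).2.2 ((mem_CO f).mp (hRm _ hz'')).2.2
      ((mem_CO f).mp (hRm _ hz'.1)).2.2
    rcases h7 with h7 | h7
    · exact h6 ⟨by omega, by omega⟩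
    · exact h6 ⟨by omega, by omega⟩
  have hBc : B.card ≤ T.card := by
    refine card_le_card_of_injOn (fun z => (kap f z.1, (kap f z.2 : ℤ) + z.2 / s)) ?_ ?_
    · intro z hz
      rw [mem_coe, hB, mem_filter] at hz
      have := ((mem_CO f).mp (hRm z hz.1)).1.2
      exact mem_coe.mpr (hrange _ _ this.1 this.2)
    · intro z hz z' hz' h
      simp only [Prod.mk.injEq] at h
      rw [mem_coe] at hz hz'
      have hzR := (mem_filter.mp hz).1
      have hzR' := (mem_filter.mp hz').1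
      have hy : z.2 = z'.2 ∨ (kap f z.2 = kap f z'.2 ∧ z.2 / s = z'.2 / s) := by
        rcases lt_trichotomy z.2 z'.2 with h1 | h1 | h1
        · exact Or.inr (hsep _ _ h1 h.2)
        · exact Or.inl h1
        · obtain ⟨g1, g2⟩ := hsep _ _ h1 h.2.symm
          exact Or.inr ⟨g1.symm, g2.symm⟩
      rcases hy with hy | ⟨g1, g2⟩
      · exact hinj2 z hzR z' hzR' h.1 hy
      · rcases lt_trichotomy z.1 z'.1 with h1 | h1 | h1
        · exact absurd g2 (hBkey z hz z' hz' ⟨h.1, g1⟩ h1)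
        · exact hinj1 z hzR z' hzR' g1 h1
        · exact absurd g2.symm (hBkey z' hz' z hz ⟨h.1.symm, g1.symm⟩ h1)
  have hsum : R.card = A.card + B.card := by
    rw [hA, hB]
    exact (card_filter_add_card_filter_not _).symm
  omega

theorem derivative_ne (hb : 2 ≤ f.natDegree) : f.derivative ≠ 0 := by
  intro h
  have := derivative_eq_zero.mp h
  omega

theorem CO_empty (hd : f.natDegree = 1) (hf : f.Monic) (w : ℕ) : CO f w = ∅ := by
  rw [eq_empty_iff_forall_notMem]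
  intro z hz
  rw [mem_CO] at hz
  obtain ⟨_, h1, h2⟩ := hz
  have h3 : f = X + C (f.coeff 0) := by
    have := hf.as_sum
    rw [hd] at this
    simpa using this
  rw [h3] at h2
  simp only [eval_add, eval_X, eval_C, add_left_inj, Int.cast_inj] at h2
  exact h1 h2

/-- **Lemma V, monic version** -/
theorem CO_card_monic (hodd : Odd f.natDegree) (hb : 2 ≤ f.natDegree) (hf : f.Monic) (w s : ℕ)
    (hs : 1 ≤ s) :
    (CO f w).card ≤ 4 * f.natDegree ^ 3 * s ^ 2
      + 2 * (f.natDegree * (w / s + f.natDegree)) := by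
  classical
  have h1 : (CO f w).card = (Good f w s).card + (CO f w \ Good f w s).card := by
    have hsub : Good f w s ⊆ CO f w := filter_subset _ _
    rw [card_sdiff_of_subset hsub]
    have := card_le_card hsub
    omega
  rw [h1]
  exact Nat.add_le_add (good_card f hodd hb hf w s)
    (bad_card f (by omega) (derivative_ne f hb) w s hs)

theorem CO_card_le (hodd : Odd f.natDegree) (hf : f.Monic) (w : ℕ)
    (hw : 10 ^ 8 * f.natDegree ^ 6 ≤ w) : 100 * (CO f w).card ≤ w := by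
  by_cases hd : f.natDegree = 1
  · rw [CO_empty f hd hf]; simp
  have hb : 3 ≤ f.natDegree := by
    obtain ⟨t, ht⟩ := hodd
    omega
  set b := f.natDegree with hbdef
  have h1 := CO_card_monic f hodd (by omega) hf w (400 * b) (by omega)
  rw [← hbdef] at h1
  have h2 : b * (w / (400 * b)) ≤ w / 400 := by
    rw [Nat.le_div_iff_mul_le (by norm_num)]
    have := Nat.div_mul_le_self w (400 * b)
    calc b * (w / (400 * b)) * 400 = w / (400 * b) * (400 * b) := by ring
      _ ≤ w := this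
  have h3 : w / 400 * 400 ≤ w := Nat.div_mul_le_self w 400
  have h4 : 4 * b ^ 3 * (400 * b) ^ 2 = 640000 * b ^ 5 := by ring
  have h5 : 2 * (b * (w / (400 * b) + b)) = 2 * (b * (w / (400 * b))) + 2 * b ^ 2 := by ring
  rw [h4, h5] at h1
  have h6 : b ^ 2 ≤ b ^ 5 := Nat.pow_le_pow_right (by omega) (by norm_num)
  have h7 : 3 * b ^ 5 ≤ b ^ 6 := by
    calc 3 * b ^ 5 ≤ b * b ^ 5 := Nat.mul_le_mul_right _ hb
      _ = b ^ 6 := by ring
  omega

end count

/-- **Lemma V for integer polynomials** -/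
theorem chain_aux (b w : ℕ) (hb : Odd b) (hw : 10 ^ 8 * b ^ 6 ≤ w) (F : ℤ[X])
    (hF : F.natDegree = b) :
    100 * ((Finset.range w).filter (fun x => ∃ y ∈ Finset.range w, y ≠ x ∧
      F.eval (x : ℤ) = F.eval (y : ℤ))).card ≤ w := by
  classical
  have hF0 : F ≠ 0 := by
    rintro rfl
    rw [natDegree_zero] at hF
    have := hb.pos
    omega
  set G : ℝ[X] := F.map (Int.castRingHom ℝ) with hG
  have hinj : Function.Injective (Int.castRingHom ℝ) := Int.cast_injective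
  have hGd : G.natDegree = b := by rw [hG, natDegree_map_eq_of_injective hinj, hF]
  have hG0 : G ≠ 0 := (Polynomial.map_ne_zero_iff hinj).mpr hF0
  set f : ℝ[X] := G * C (G.leadingCoeff)⁻¹ with hf
  have hmonic : f.Monic := monic_mul_leadingCoeff_inv hG0
  have hfd : f.natDegree = b := by
    rw [hf, natDegree_mul_leadingCoeff_inv G hG0, hGd]
  have heval : ∀ x y : ℕ, F.eval (x : ℤ) = F.eval (y : ℤ) →
      f.eval (((x : ℤ)) : ℝ) = f.eval (((y : ℤ)) : ℝ) := by
    intro x y h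
    rw [hf, eval_mul, eval_mul, eval_C, eval_C]
    congr 1
    have e : ∀ z : ℤ, G.eval (z : ℝ) = ((F.eval z : ℤ) : ℝ) := by
      intro z
      rw [hG]
      simp
    rw [e, e, h]
  have h1 := CO_card_le f (by rw [hfd]; exact hb) hmonic w (by rw [hfd]; exact hw)
  have h2 : ((Finset.range w).filter (fun x => ∃ y ∈ Finset.range w, y ≠ x ∧
      F.eval (x : ℤ) = F.eval (y : ℤ))).card ≤ (CO f w).card := by
    refine le_trans ?_ (card_image_le (s := CO f w) (f := fun z => z.1.toNat))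
    apply card_le_card
    intro x hx
    rw [mem_filter, mem_range] at hx
    obtain ⟨hxw, y, hy, hyx, he⟩ := hx
    rw [mem_range] at hy
    rw [mem_image]
    refine ⟨((x : ℤ), (y : ℤ)), ?_, by simp⟩
    rw [mem_CO]
    refine ⟨⟨⟨?_, ?_⟩, ⟨?_, ?_⟩⟩, ?_, ?_⟩ <;> simp only
    · positivity
    · exact_mod_cast hxw
    · positivity
    · exact_mod_cast hy
    · intro h
      exact hyx (by exact_mod_cast h.symm)
    · exact heval x y he
  omega

end Crest.Agent.S86V
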